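import Vale.Agent.P133Z.Main
import Vale.Agent.P133Z.TMain

namespace Vale.Agent.Results.P133.AAExact

universe u v

open Vale.Agent.P133.Statement Vale.Agent.P133F Vale.Agent.P133Z

/-- (1) Question (a): every purely infinite C*-algebra is strongly purely infinite.
(2) Question (b) for exact C*-algebras (the minimal tensor product with `A` preserves short exact
sequences): weak, ordinary and strong pure infiniteness of `A` are equivalent.
(3) The same if `A` has an injective nuclear *-homomorphism into some C*-algebra,
(4) in particular if `A` is nuclear (the identity map is nuclear). -/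
theorem result :
    (∀ (A : Type u) [NonUnitalCStarAlgebra A] [PartialOrder A] [StarOrderedRing A],
      PurelyInfinite A ↔ StronglyPurelyInfinite A) ∧
    (∀ (A : Type u) [NonUnitalCStarAlgebra A] [PartialOrder A] [StarOrderedRing A], IsExact A →
      (WeaklyPurelyInfinite A ↔ PurelyInfinite A) ∧
        (WeaklyPurelyInfinite A ↔ StronglyPurelyInfinite A)) ∧
    (∀ (A : Type u) [NonUnitalCStarAlgebra A] [PartialOrder A] [StarOrderedRing A]
      (B : Type v) [NonUnitalCStarAlgebra B] [PartialOrder B] [StarOrderedRing B]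
      (ι : A →⋆ₙₐ[ℂ] B), Function.Injective ι → IsNuclearMap ι →
      (WeaklyPurelyInfinite A ↔ PurelyInfinite A) ∧
        (WeaklyPurelyInfinite A ↔ StronglyPurelyInfinite A)) ∧
    (∀ (A : Type u) [NonUnitalCStarAlgebra A] [PartialOrder A] [StarOrderedRing A],
      IsNuclearMap (fun a : A => a) →
      (WeaklyPurelyInfinite A ↔ PurelyInfinite A) ∧
        (WeaklyPurelyInfinite A ↔ StronglyPurelyInfinite A)) := by
  have key : ∀ (A : Type u) [NonUnitalCStarAlgebra A] [PartialOrder A] [StarOrderedRing A],
      Vale.Agent.P133Z.Small A → (WeaklyPurelyInfinite A ↔ PurelyInfinite A) ∧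
        (WeaklyPurelyInfinite A ↔ StronglyPurelyInfinite A) := by
    intro A _ _ _ hS
    have h : WeaklyPurelyInfinite A ↔ PurelyInfinite A := ⟨pi_of_small hS, wpi_of_pi⟩
    exact ⟨h, h.trans (Vale.Agent.P133.H681.pi_iff_spi A)⟩
  exact ⟨fun A _ _ _ => Vale.Agent.P133.H681.pi_iff_spi A,
    fun A _ _ _ h => key A (small_of_exact h),
    fun A _ _ _ B _ _ _ ι h1 h2 => key A (small_of_nuclear ι h1 h2),
    fun A _ _ _ h => key A
      (small_of_nuclear (NonUnitalStarAlgHom.id ℂ A) Function.injective_id h)⟩

end Vale.Agent.Results.P133.AAExact
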